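import Vale.Agent.Q258U.Main
import Vale.Agent.Q258U.NW
import Vale.Agent.Q258U.E1N
import Vale.Agent.Q258E.Main
import Vale.Agent.Q258D.E1
import Vale.Agent.Q258D.J
import Vale.Agent.Q258D.J0

/-!
The slopes `2` and `-2` on random knots of genus at most two with Alexander polynomial one, in a
model that contains every knot of genus at most two.
-/

namespace Vale.Agent.Results.P258.A000Universal

open Vale.Agent.P258.Braid Vale.Agent.N258B Vale.Agent.Q258D Vale.Agent.Q258E Vale.Agent.Q258U

/-- `surf k w` is a word on `16 k` strands whose plat closure bounds a disc with four bands, the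
bands being tangled as the plat of the braid `w` on `8 k` strands.  Every knot that bounds an
embedded surface of class `C¹` and genus two is, for all large `k`, such a plat closure for a word
`w` that keeps the pairs of strands.  `Der (8 * k) M (j + 1)` is the term `j + 1` of the derived
series of the normal closure of the powers `2 M` of the generators.  For every large `k`: the
Alexander condition and the Jones data are constant on its cosets; in each coset with Alexander
polynomial one the words for which the surgeries of slopes `2` and `-2` are not told apart have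
profinite measure zero; and among the words of length `n` with Alexander polynomial one and any
property that is constant on the cosets, their proportion tends to zero. -/
theorem result (j : ℕ) : (∃ f g, Surface f g) ∧
    (∀ f g, Surface f g → ∀ (e : ℂ × ℝ → S3) (ν : Circle × ℂ → S3), Topology.IsOpenEmbedding e →
      Topology.IsOpenEmbedding ν → core ν = e '' rim f g → Preferred ν →
      ∃ k0, ∀ k ≥ k0, ∃ w, Prs (8 * k) w ∧ ∃ e', Framed (8 * k) 0 (surf k w) e' ν) ∧
    ∃ k0, ∀ k ≥ k0,
    (ForSome k [] Alex ∧ ∀ A : ℂˣ, bracket A (8 * k) (surf k []) = 1) ∧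
    (∀ (M : ℕ) (w0 w : Word), Prs (8 * k) w0 → ForSome k w0 Alex →
      InCoset (Der (8 * k) M (j + 1)) w0 w → ForAll k w Alex ∧ SameJones k M (2 ^ (j + 1)) w0 w) ∧
    (∀ M : ℕ, 0 < M → ∀ ε : ℝ, 0 < ε → ∃ S : Subgroup (BraidGroup (8 * k)),
      S.Normal ∧ S.FiniteIndex ∧ ∀ w0 : Word, Prs (8 * k) w0 → ForSome k w0 Alex →
        (cosets S (Der (8 * k) M (j + 1)) w0 fun w => ForSome k w Bad : ℝ) ≤
          ε * cosets S (Der (8 * k) M (j + 1)) w0 fun _ => True) ∧
    ∀ P : BraidGroup (8 * k) → Prop, (∀ β, P β → ∀ γ ∈ Der (8 * k) 1 (j + 1), P (β * γ)) →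
      (∀ w0 : Word, Prs (8 * k) w0 → P (toBraid (8 * k) w0) ∧ ForSome k w0 Alex →
        ∀ n : ℕ, 0 < wordsP (8 * k) (w0.length + 2 * n) fun w =>
          P (toBraid (8 * k) w) ∧ ForSome k w Alex) ∧
      ∀ ε : ℝ, 0 < ε → ∃ n0, ∀ n ≥ n0,
        (wordsP (8 * k) n fun w =>
          (P (toBraid (8 * k) w) ∧ ForSome k w Alex) ∧ ForSome k w Bad : ℝ) ≤
        ε * wordsP (8 * k) n fun w => P (toBraid (8 * k) w) ∧ ForSome k w Alex := by
  have h2 := N.rowE2N N.rowE1N
  have hH := N.rowH2 (N.RG.rowG2 rowU2' (rowU3 rowEH' rowU1' rowU2'))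
  obtain ⟨k1, h1⟩ := N.coset_count h2 rowW4 hH j
  obtain ⟨k2, h3⟩ := N.word_count h2 rowW4 hH rowW3 j
  refine ⟨rowEx, fun f g h e ν he hν hc hp => ?_, k1 + k2 + 1, fun k hk => ?_⟩
  · obtain ⟨k0, h⟩ := universal h
    exact ⟨k0, fun k hk => (h k hk).imp fun w hw => ⟨hw.1, framed_of hw.2 he hν hc hp⟩⟩
  have hk0 : 0 < k := by omega
  exact ⟨⟨alex_nil rowE1 hk0, rowJ0 k hk0 ℂ⟩,
    fun M w0 w a b c => ⟨N.alex_coset h2 rowW4 hk0 M j a b c, rowJ k M j w0 w a.1 c⟩,
    h1 k (by omega), fun P hP =>
      ⟨fun w0 a b => N.aa_pos h2 rowW4 rowW3 hk0 hP a b, h3 k (by omega) P hP⟩⟩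

end Vale.Agent.Results.P258.A000Universal
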